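import Vale.Agent.P038.Defs

/-!
# The comparison theorem on gap cells

`V` is a finite set, `R` a relation on `V` (later: the reflexive closure of the arcs), and
`P T : V → Finset V` are two families. A cell `(a, b)` is a gap cell when `b ∉ P a` and `a ∉ T b`.
-/

namespace Vale.Agent.P038.H895

open Finset
open scoped Classical

noncomputable section

variable {V : Type*} [Fintype V]

/-- The elements of `S` which are related to some element of `W`. -/
def src (R : V → V → Prop) (S W : Finset V) : Finset V := S.filter fun a => ∃ t ∈ W, R a t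

/-- The rank (in the minimum form of the deficiency version of Hall's theorem) of the bipartite
graph between `S` and `M`. -/
def rk (R : V → V → Prop) (S M : Finset V) : ℕ :=
  M.powerset.inf' ⟨∅, Finset.empty_mem_powerset M⟩ fun W => (src R S W).card + (M \ W).card

theorem rk_le {R : V → V → Prop} {S M W : Finset V} (h : W ⊆ M) :
    rk R S M ≤ (src R S W).card + (M \ W).card :=
  Finset.inf'_le _ (Finset.mem_powerset.2 h)

theorem exists_rk (R : V → V → Prop) (S M : Finset V) :
    ∃ W, W ⊆ M ∧ rk R S M = (src R S W).card + (M \ W).card := by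
  obtain ⟨W, hW, h⟩ := Finset.exists_mem_eq_inf' (s := M.powerset)
    ⟨∅, Finset.empty_mem_powerset M⟩ (fun W => (src R S W).card + (M \ W).card)
  exact ⟨W, Finset.mem_powerset.1 hW, h⟩

theorem src_mono {R : V → V → Prop} {S W W' : Finset V} (h : W ⊆ W') :
    src R S W ⊆ src R S W' := by
  intro a ha
  simp only [src, Finset.mem_filter] at ha ⊢
  obtain ⟨h1, t, ht, h2⟩ := ha
  exact ⟨h1, t, h ht, h2⟩

theorem rk_insert_le {R : V → V → Prop} {S M : Finset V} {d : V} :
    rk R S (insert d M) ≤ rk R S M + 1 := by
  obtain ⟨W, hW, h⟩ := exists_rk R S M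
  have h1 : rk R S (insert d M) ≤ (src R S W).card + (insert d M \ W).card :=
    rk_le (hW.trans (Finset.subset_insert _ _))
  have h2 : (insert d M \ W).card ≤ (M \ W).card + 1 := by
    calc (insert d M \ W).card ≤ (insert d (M \ W)).card := by
          apply Finset.card_le_card
          intro x hx
          simp only [Finset.mem_sdiff, Finset.mem_insert] at hx ⊢
          tauto
      _ ≤ (M \ W).card + 1 := Finset.card_insert_le _ _
  omega

theorem rk_le_insert {R : V → V → Prop} {S M : Finset V} {d : V} (hd : d ∉ M) :
    rk R S M ≤ rk R S (insert d M) := by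
  obtain ⟨W, hW, h⟩ := exists_rk R S (insert d M)
  have hs : W.erase d ⊆ M := by
    intro x hx
    have := hW (Finset.mem_of_mem_erase hx)
    rcases Finset.mem_insert.1 this with h1 | h1
    · exact absurd h1 (Finset.ne_of_mem_erase hx)
    · exact h1
  have h1 : rk R S M ≤ (src R S (W.erase d)).card + (M \ W.erase d).card := rk_le hs
  have h2 : (src R S (W.erase d)).card ≤ (src R S W).card :=
    Finset.card_le_card (src_mono (Finset.erase_subset _ _))
  have h3 : (M \ W.erase d).card ≤ (insert d M \ W).card := by
    apply Finset.card_le_card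
    intro x hx
    simp only [Finset.mem_sdiff, Finset.mem_insert, Finset.mem_erase, not_and] at hx ⊢
    refine ⟨Or.inr hx.1, ?_⟩
    intro hxW
    apply hx.2 _ hxW
    rintro rfl
    exact hd hx.1
  omega

theorem rk_le_card {R : V → V → Prop} {S M : Finset V} : rk R S M ≤ S.card := by
  have h1 : rk R S M ≤ (src R S M).card + (M \ M).card := rk_le (Finset.Subset.refl _)
  have h2 : (src R S M).card ≤ S.card := Finset.card_filter_le _ _
  simp at h1
  omega

theorem le_rk {R : V → V → Prop} {S M : Finset V}
    (h : ∀ U : Finset V, U ⊆ S → U.card ≤ (M.filter fun d => ∃ a ∈ U, R a d).card) :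
    S.card ≤ rk R S M := by
  obtain ⟨W, hW, h1⟩ := exists_rk R S M
  have h2 := h (S \ src R S W) Finset.sdiff_subset
  have h3 : (M.filter fun d => ∃ a ∈ S \ src R S W, R a d).card ≤ (M \ W).card := by
    apply Finset.card_le_card
    intro d hd
    simp only [src, Finset.mem_filter, Finset.mem_sdiff, not_and, not_exists] at hd ⊢
    obtain ⟨hdM, a, ⟨ha, ha'⟩, hR⟩ := hd
    exact ⟨hdM, fun hdW => ha' ha d hdW hR⟩
  have h4 : (S \ src R S W).card = S.card - (src R S W).card :=
    Finset.card_sdiff_of_subset (Finset.filter_subset _ _)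
  omega

/-- The cells `(a, c)` such that `c` is not in the closed out-neighbourhood of `P a`, but is
reached from a gap cell of row `a`. -/
def p1 (R : V → V → Prop) (P T : V → Finset V) (a c : V) : Prop :=
  (∀ x ∈ P a, ¬ R x c) ∧ ∃ b, R b c ∧ b ∉ P a ∧ a ∉ T b

/-- The target cells `(d, c)`. -/
def q (R : V → V → Prop) (P T : V → Finset V) (d c : V) : Prop :=
  (∃ b, R b c ∧ ∀ x ∈ T b, ¬ R x d) ∧ (∃ a, R a d ∧ ∀ x ∈ P a, ¬ R x c)

theorem q_symm {R : V → V → Prop} {P T : V → Finset V} {d c : V} :
    q R P T d c ↔ q R T P c d := and_comm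

/-- The column Hall condition on gap cells. -/
def HC (R : V → V → Prop) (P T : V → Finset V) : Prop :=
  ∀ (b : V) (S : Finset V), (∀ a ∈ S, b ∉ P a ∧ a ∉ T b) →
    S.card ≤ (univ.filter fun d => (∃ a ∈ S, R a d) ∧ ∀ x ∈ T b, ¬ R x d).card

theorem claim1_aux {R : V → V → Prop} {P T : V → Finset V} (H : HC R P T) (B : Finset V) :
    ∀ S : Finset V, (∀ a ∈ S, ∀ b ∈ B, b ∉ P a) → (∀ a ∈ S, ∃ b ∈ B, a ∉ T b) →
      S.card ≤ (univ.filter fun d =>
        (∃ a ∈ S, R a d) ∧ ∃ b ∈ B, ∀ x ∈ T b, ¬ R x d).card := by
  induction B using Finset.induction_on with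
  | empty =>
    intro S _ h2
    have : S = ∅ := by
      apply Finset.eq_empty_of_forall_notMem
      intro a ha
      obtain ⟨b, hb, _⟩ := h2 a ha
      simp at hb
    simp [this]
  | insert b B hb ih =>
    intro S h1 h2
    set S1 := S.filter fun a => ∃ b' ∈ B, a ∉ T b' with hS1
    set S2 := S.filter fun a => ¬ ∃ b' ∈ B, a ∉ T b' with hS2
    have hcard : S1.card + S2.card = S.card := Finset.card_filter_add_card_filter_not _
    have i1 := ih S1 (fun a ha b' hb' => h1 a (Finset.mem_filter.1 ha).1 b'
      (Finset.mem_insert_of_mem hb')) (fun a ha => (Finset.mem_filter.1 ha).2)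
    have i2 := H b S2 (by
      intro a ha
      have ha' := Finset.mem_filter.1 ha
      refine ⟨h1 a ha'.1 b (Finset.mem_insert_self _ _), ?_⟩
      obtain ⟨b', hb', h3⟩ := h2 a ha'.1
      rcases Finset.mem_insert.1 hb' with rfl | h4
      · exact h3
      · exact absurd ⟨b', h4, h3⟩ ha'.2)
    have hdisj : Disjoint
        (univ.filter fun d => (∃ a ∈ S1, R a d) ∧ ∃ b ∈ B, ∀ x ∈ T b, ¬ R x d)
        (univ.filter fun d => (∃ a ∈ S2, R a d) ∧ ∀ x ∈ T b, ¬ R x d) := by
      rw [Finset.disjoint_left]
      intro d hd hd'
      simp only [Finset.mem_filter, Finset.mem_univ, true_and] at hd hd'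
      obtain ⟨_, b', hb', h3⟩ := hd
      obtain ⟨⟨a, ha, hR⟩, _⟩ := hd'
      have ha' := (Finset.mem_filter.1 ha).2
      push Not at ha'
      exact h3 a (ha' b' hb') hR
    rw [← hcard]
    refine (Nat.add_le_add i1 i2).trans ?_
    rw [← Finset.card_union_of_disjoint hdisj]
    apply Finset.card_le_card
    intro d hd
    simp only [Finset.mem_union, Finset.mem_filter, Finset.mem_univ, true_and] at hd ⊢
    rcases hd with ⟨⟨a, ha, hR⟩, b', hb', h3⟩ | ⟨⟨a, ha, hR⟩, h3⟩
    · exact ⟨⟨a, (Finset.mem_filter.1 ha).1, hR⟩, b', Finset.mem_insert_of_mem hb', h3⟩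
    · exact ⟨⟨a, (Finset.mem_filter.1 ha).1, hR⟩, b, Finset.mem_insert_self _ _, h3⟩

theorem claim1 {R : V → V → Prop} {P T : V → Finset V} (H : HC R P T) (c : V) (S : Finset V)
    (hS : ∀ a ∈ S, p1 R P T a c) :
    S.card ≤ (univ.filter fun d => (∃ a ∈ S, R a d) ∧ q R P T d c).card := by
  refine (claim1_aux H (univ.filter fun b => R b c) S ?_ ?_).trans ?_
  · intro a ha b hb hbP
    exact (hS a ha).1 b hbP (Finset.mem_filter.1 hb).2
  · intro a ha
    obtain ⟨_, b, hb, _, h2⟩ := hS a ha
    exact ⟨b, by simpa using hb, h2⟩
  · apply Finset.card_le_card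
    intro d hd
    simp only [Finset.mem_filter, Finset.mem_univ, true_and] at hd ⊢
    obtain ⟨⟨a, ha, hR⟩, b, hb, h3⟩ := hd
    exact ⟨⟨a, ha, hR⟩, ⟨b, hb, h3⟩, ⟨a, hR, (hS a ha).1⟩⟩

/-- Key step: if adding `d` does not raise the rank of column `b`, then it does not raise the rank
of column `c`, for `R b c`. -/
theorem claim3 {R : V → V → Prop} {P T : V → Finset V} {b c d : V} {D : Finset V} (hd : d ∉ D)
    (hbc : R b c) (hdb : p1 R T P b d) (hqd : q R P T d c)
    (h : rk R (univ.filter fun a => b ∉ P a ∧ a ∉ T b)
        (insert d (D.filter fun d => p1 R T P b d)) =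
      rk R (univ.filter fun a => b ∉ P a ∧ a ∉ T b) (D.filter fun d => p1 R T P b d)) :
    rk R (univ.filter fun a => p1 R P T a c) (insert d (D.filter fun d => q R P T d c)) ≤
      rk R (univ.filter fun a => p1 R P T a c) (D.filter fun d => q R P T d c) := by
  set G : Finset V := univ.filter fun a => b ∉ P a ∧ a ∉ T b with hG
  set M : Finset V := D.filter fun d => p1 R T P b d with hM
  set G' : Finset V := univ.filter fun a => p1 R P T a c with hG'
  set M' : Finset V := D.filter fun d => q R P T d c with hM'
  have hdM : d ∉ M := fun h => hd (Finset.mem_filter.1 h).1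
  have hdM' : d ∉ M' := fun h => hd (Finset.mem_filter.1 h).1
  obtain ⟨W, hW, hWr⟩ := exists_rk R G (insert d M)
  -- `d ∈ W`
  have hdW : d ∈ W := by
    by_contra hdW
    have hWM : W ⊆ M := by
      intro x hx
      rcases Finset.mem_insert.1 (hW hx) with h1 | h1
      · exact absurd (h1 ▸ hx) hdW
      · exact h1
    have h1 : rk R G M ≤ (src R G W).card + (M \ W).card := rk_le hWM
    have h2 : (insert d M \ W).card = (M \ W).card + 1 := by
      rw [Finset.insert_sdiff_of_notMem _ hdW, Finset.card_insert_of_notMem]
      intro h3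
      exact hdM (Finset.mem_sdiff.1 h3).1
    omega
  set W0 := W.erase d with hW0
  have hW0M : W0 ⊆ M := by
    intro x hx
    rcases Finset.mem_insert.1 (hW (Finset.mem_of_mem_erase hx)) with h1 | h1
    · exact absurd h1 (Finset.ne_of_mem_erase hx)
    · exact h1
  have hsd : insert d M \ W = M \ W0 := by
    ext x
    simp only [Finset.mem_sdiff, Finset.mem_insert, hW0, Finset.mem_erase, not_and]
    constructor
    · rintro ⟨h1, h2⟩
      rcases h1 with rfl | h1
      · exact absurd hdW h2
      · exact ⟨h1, fun _ => h2⟩
    · rintro ⟨h1, h2⟩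
      refine ⟨Or.inr h1, h2 ?_⟩
      rintro rfl
      exact hdM h1
  have hmin : ∀ W1 : Finset V, W1 ⊆ M →
      (src R G W).card + (M \ W0).card ≤ (src R G W1).card + (M \ W1).card := by
    intro W1 h1
    have h2 : rk R G M ≤ (src R G W1).card + (M \ W1).card := rk_le h1
    rw [← hsd]
    omega
  have hsrc : src R G W = src R G W0 := by
    have h5 : (src R G W).card ≤ (src R G W0).card := by
      have := hmin W0 hW0M
      omega
    exact (Finset.eq_of_subset_of_card_le (src_mono (Finset.erase_subset _ _)) h5).symm
  obtain ⟨W', hW', hWr'⟩ := exists_rk R G' M'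
  set W1 := W0.filter fun t => q R P T t c → t ∈ W' with hW1
  have hW1W0 : W1 ⊆ W0 := Finset.filter_subset _ _
  have hW1M : W1 ⊆ M := hW1W0.trans hW0M
  -- the deficiency inequality
  have hdef : (src R G W0).card ≤ (src R G W1).card + (W0 \ W1).card := by
    have h1 := hmin W1 hW1M
    rw [hsrc] at h1
    have h2 : (M \ W1).card = (M \ W0).card + (W0 \ W1).card := by
      rw [Finset.card_sdiff_of_subset hW1M, Finset.card_sdiff_of_subset hW0M,
        Finset.card_sdiff_of_subset hW1W0]
      have := Finset.card_le_card hW1W0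
      have := Finset.card_le_card hW0M
      omega
    omega
  have hcov : src R G' W ⊆ src R G' W' ∪ (src R G W0 \ src R G W1) := by
    intro a ha
    have ha1 : a ∈ G' := (Finset.mem_filter.1 ha).1
    have ha1' : p1 R P T a c := by simpa [hG'] using ha1
    obtain ⟨t, ht, hRt⟩ := (Finset.mem_filter.1 ha).2
    have haG : ∀ t ∈ W, R a t → a ∈ G := by
      intro t ht hRt
      have ht1 : p1 R T P b t := by
        rcases Finset.mem_insert.1 (hW ht) with rfl | h1
        · exact hdb
        · exact (Finset.mem_filter.1 h1).2
      simp only [hG, Finset.mem_filter, Finset.mem_univ, true_and]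
      exact ⟨fun h1 => ha1'.1 b h1 hbc, fun h1 => ht1.1 a h1 hRt⟩
    by_cases haW' : a ∈ src R G' W'
    · exact Finset.mem_union_left _ haW'
    · apply Finset.mem_union_right
      rw [Finset.mem_sdiff]
      constructor
      · rw [← hsrc]
        exact Finset.mem_filter.2 ⟨haG t ht hRt, t, ht, hRt⟩
      · intro h1
        obtain ⟨s, hs, hRs⟩ := (Finset.mem_filter.1 h1).2
        have hs' := Finset.mem_filter.1 hs
        have hsW : s ∈ W := Finset.mem_of_mem_erase hs'.1
        have hs1 : p1 R T P b s := (Finset.mem_filter.1 (hW0M hs'.1)).2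
        have hq : q R P T s c := ⟨⟨b, hbc, hs1.1⟩, ⟨a, hRs, ha1'.1⟩⟩
        exact haW' (Finset.mem_filter.2 ⟨ha1, s, hs'.2 hq, hRs⟩)
  -- the competitor
  set W2 := W' ∪ (W.filter fun t => q R P T t c) with hW2
  have hW2s : W2 ⊆ insert d M' := by
    intro x hx
    rcases Finset.mem_union.1 hx with h1 | h1
    · exact Finset.mem_insert_of_mem (hW' h1)
    · obtain ⟨h2, h3⟩ := Finset.mem_filter.1 h1
      rcases Finset.mem_insert.1 (hW h2) with h4 | h4
      · exact Finset.mem_insert.2 (Or.inl h4)
      · exact Finset.mem_insert_of_mem (Finset.mem_filter.2 ⟨(Finset.mem_filter.1 h4).1, h3⟩)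
  have e1 : rk R G' (insert d M') ≤ (src R G' W2).card + (insert d M' \ W2).card := rk_le hW2s
  have e2 : src R G' W2 ⊆ src R G' W' ∪ (src R G W0 \ src R G W1) := by
    intro a ha
    obtain ⟨h1, t, ht, hRt⟩ := Finset.mem_filter.1 ha
    rcases Finset.mem_union.1 ht with h2 | h2
    · exact Finset.mem_union_left _ (Finset.mem_filter.2 ⟨h1, t, h2, hRt⟩)
    · exact hcov (Finset.mem_filter.2 ⟨h1, t, (Finset.mem_filter.1 h2).1, hRt⟩)
  have e3 : (src R G' W2).card ≤ (src R G' W').card + (W0 \ W1).card := by
    have h1 := (Finset.card_le_card e2).trans (Finset.card_union_le _ _)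
    have h2 : (src R G W0 \ src R G W1).card = (src R G W0).card - (src R G W1).card :=
      Finset.card_sdiff_of_subset (src_mono hW1W0)
    omega
  -- `insert d M' \ W2` and `W0 \ W1` are disjoint subsets of `M' \ W'`
  have e4 : (insert d M' \ W2).card + (W0 \ W1).card ≤ (M' \ W').card := by
    have hdisj : Disjoint (insert d M' \ W2) (W0 \ W1) := by
      rw [Finset.disjoint_left]
      intro x hx hx'
      rw [Finset.mem_sdiff] at hx hx'
      have hxq : q R P T x c := by
        by_contra hxq
        exact hx'.2 (Finset.mem_filter.2 ⟨hx'.1, fun h => absurd h hxq⟩)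
      exact hx.2 (Finset.mem_union_right _
        (Finset.mem_filter.2 ⟨Finset.mem_of_mem_erase hx'.1, hxq⟩))
    rw [← Finset.card_union_of_disjoint hdisj]
    apply Finset.card_le_card
    intro x hx
    rcases Finset.mem_union.1 hx with h1 | h1
    · rw [Finset.mem_sdiff] at h1 ⊢
      refine ⟨?_, fun h2 => h1.2 (Finset.mem_union_left _ h2)⟩
      rcases Finset.mem_insert.1 h1.1 with rfl | h2
      · exact absurd (Finset.mem_union_right _ (Finset.mem_filter.2 ⟨hdW, hqd⟩)) h1.2
      · exact h2
    · rw [Finset.mem_sdiff] at h1 ⊢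
      have hxq : q R P T x c ∧ x ∉ W' := by
        by_contra hxq
        apply h1.2
        refine Finset.mem_filter.2 ⟨h1.1, fun h2 => ?_⟩
        by_contra h3
        exact hxq ⟨h2, h3⟩
      exact ⟨Finset.mem_filter.2 ⟨(Finset.mem_filter.1 (hW0M h1.1)).1, hxq.1⟩, hxq.2⟩
  omega

/-- **Comparison theorem.** -/
theorem comparison {R : V → V → Prop} {P T : V → Finset V} (H1 : HC R T P) (H2 : HC R P T) :
    ∑ b, ((univ.filter fun d => p1 R T P b d).card : ℤ) +
        ∑ c, ((univ.filter fun a => p1 R P T a c).card : ℤ) ≤
      ∑ b, ((univ.filter fun a => b ∉ P a ∧ a ∉ T b).card : ℤ) +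
        ∑ c, ((univ.filter fun d => q R P T d c).card : ℤ) := by
  have key : ∀ D : Finset V,
      ∑ b, (((D.filter fun d => p1 R T P b d).card : ℤ) -
        rk R (univ.filter fun a => b ∉ P a ∧ a ∉ T b) (D.filter fun d => p1 R T P b d)) ≤
      ∑ c, (((D.filter fun d => q R P T d c).card : ℤ) -
        rk R (univ.filter fun a => p1 R P T a c) (D.filter fun d => q R P T d c)) := by
    intro D
    induction D using Finset.induction_on with
    | empty =>
      have h0 : ∀ S : Finset V, rk R S ∅ = 0 := by
        intro S
        have h1 : rk R S ∅ ≤ (src R S ∅).card + (∅ \ ∅ : Finset V).card :=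
          rk_le (Finset.Subset.refl _)
        simpa [src] using h1
      simp [h0]
    | insert d D hd ih =>
      set Z : Finset V := univ.filter fun b => p1 R T P b d ∧
        rk R (univ.filter fun a => b ∉ P a ∧ a ∉ T b)
          (insert d (D.filter fun d => p1 R T P b d)) =
        rk R (univ.filter fun a => b ∉ P a ∧ a ∉ T b) (D.filter fun d => p1 R T P b d) with hZ
      set Z' : Finset V := univ.filter fun c => q R P T d c ∧
        rk R (univ.filter fun a => p1 R P T a c) (insert d (D.filter fun d => q R P T d c)) =
        rk R (univ.filter fun a => p1 R P T a c) (D.filter fun d => q R P T d c) with hZ'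
      have hZZ : Z.card ≤ Z'.card := by
        refine (claim1 (R := R) (P := T) (T := P) H1 d Z ?_).trans ?_
        · intro b hb
          exact (Finset.mem_filter.1 hb).2.1
        · apply Finset.card_le_card
          intro c hc
          obtain ⟨_, ⟨b, hb, hbc⟩, hq⟩ := Finset.mem_filter.1 hc
          have hq' : q R P T d c := q_symm.1 hq
          obtain ⟨_, hb1, hb2⟩ := Finset.mem_filter.1 hb
          refine Finset.mem_filter.2 ⟨Finset.mem_univ _, hq', ?_⟩
          apply le_antisymm (claim3 hd hbc hb1 hq' hb2)
          apply rk_le_insert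
          intro h
          exact hd (Finset.mem_filter.1 h).1
      have hL : ∀ b, (((insert d D).filter fun d => p1 R T P b d).card : ℤ) -
          rk R (univ.filter fun a => b ∉ P a ∧ a ∉ T b)
            ((insert d D).filter fun d => p1 R T P b d) ≤
          (((D.filter fun d => p1 R T P b d).card : ℤ) -
            rk R (univ.filter fun a => b ∉ P a ∧ a ∉ T b) (D.filter fun d => p1 R T P b d)) +
            if b ∈ Z then 1 else 0 := by
        intro b
        by_cases hb : p1 R T P b d
        · rw [Finset.filter_insert, if_pos hb]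
          have hdn : d ∉ D.filter fun d => p1 R T P b d := fun h => hd (Finset.mem_filter.1 h).1
          rw [Finset.card_insert_of_notMem hdn]
          have h1 := rk_le_insert (R := R) (S := univ.filter fun a => b ∉ P a ∧ a ∉ T b) hdn
          by_cases hbZ : b ∈ Z
          · rw [if_pos hbZ]
            push_cast
            have : (rk R (univ.filter fun a => b ∉ P a ∧ a ∉ T b)
              (D.filter fun d => p1 R T P b d) : ℤ) ≤
              rk R (univ.filter fun a => b ∉ P a ∧ a ∉ T b)
                (insert d (D.filter fun d => p1 R T P b d)) := by exact_mod_cast h1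
            linarith
          · rw [if_neg hbZ]
            push_cast
            have h2 : rk R (univ.filter fun a => b ∉ P a ∧ a ∉ T b)
                (D.filter fun d => p1 R T P b d) + 1 ≤
              rk R (univ.filter fun a => b ∉ P a ∧ a ∉ T b)
                (insert d (D.filter fun d => p1 R T P b d)) := by
              rcases Nat.lt_or_eq_of_le h1 with h3 | h3
              · exact h3
              · exact absurd (Finset.mem_filter.2 ⟨Finset.mem_univ _, hb, h3.symm⟩) hbZ
            have h2' : (rk R (univ.filter fun a => b ∉ P a ∧ a ∉ T b)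
                (D.filter fun d => p1 R T P b d) : ℤ) + 1 ≤
              rk R (univ.filter fun a => b ∉ P a ∧ a ∉ T b)
                (insert d (D.filter fun d => p1 R T P b d)) := by exact_mod_cast h2
            linarith
        · rw [Finset.filter_insert, if_neg hb]
          split_ifs <;> linarith
      have hR : ∀ c, (((D.filter fun d => q R P T d c).card : ℤ) -
            rk R (univ.filter fun a => p1 R P T a c) (D.filter fun d => q R P T d c)) +
            (if c ∈ Z' then 1 else 0) ≤
          (((insert d D).filter fun d => q R P T d c).card : ℤ) -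
            rk R (univ.filter fun a => p1 R P T a c)
              ((insert d D).filter fun d => q R P T d c) := by
        intro c
        by_cases hc : q R P T d c
        · rw [Finset.filter_insert, if_pos hc]
          have hdn : d ∉ D.filter fun d => q R P T d c := fun h => hd (Finset.mem_filter.1 h).1
          rw [Finset.card_insert_of_notMem hdn]
          by_cases hcZ : c ∈ Z'
          · rw [if_pos hcZ, (Finset.mem_filter.1 hcZ).2.2]
            push_cast
            linarith
          · rw [if_neg hcZ]
            have h1 := rk_insert_le (R := R) (S := univ.filter fun a => p1 R P T a c)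
              (M := D.filter fun d => q R P T d c) (d := d)
            have h1' : (rk R (univ.filter fun a => p1 R P T a c)
              (insert d (D.filter fun d => q R P T d c)) : ℤ) ≤
              rk R (univ.filter fun a => p1 R P T a c) (D.filter fun d => q R P T d c) + 1 := by
              exact_mod_cast h1
            push_cast
            linarith
        · have hcZ : c ∉ Z' := fun h => hc (Finset.mem_filter.1 h).2.1
          rw [Finset.filter_insert, if_neg hc, if_neg hcZ]
          linarith
      have sL := Finset.sum_le_sum (s := univ) fun b _ => hL b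
      have sR := Finset.sum_le_sum (s := univ) fun c _ => hR c
      rw [Finset.sum_add_distrib] at sL sR
      have cZ : (∑ b, if b ∈ Z then (1 : ℤ) else 0) = Z.card := by simp
      have cZ' : (∑ c, if c ∈ Z' then (1 : ℤ) else 0) = Z'.card := by simp
      rw [cZ] at sL
      rw [cZ'] at sR
      have : (Z.card : ℤ) ≤ Z'.card := by exact_mod_cast hZZ
      linarith
  have h := key univ
  have hL : ∀ b, ((univ.filter fun d => p1 R T P b d).card : ℤ) -
      (univ.filter fun a => b ∉ P a ∧ a ∉ T b).card ≤
      ((univ.filter fun d => p1 R T P b d).card : ℤ) -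
        rk R (univ.filter fun a => b ∉ P a ∧ a ∉ T b) (univ.filter fun d => p1 R T P b d) := by
    intro b
    have : (rk R (univ.filter fun a => b ∉ P a ∧ a ∉ T b) (univ.filter fun d => p1 R T P b d) : ℤ)
      ≤ (univ.filter fun a => b ∉ P a ∧ a ∉ T b).card := by exact_mod_cast rk_le_card
    linarith
  have hR : ∀ c, ((univ.filter fun d => q R P T d c).card : ℤ) -
        rk R (univ.filter fun a => p1 R P T a c) (univ.filter fun d => q R P T d c) ≤
      ((univ.filter fun d => q R P T d c).card : ℤ) - (univ.filter fun a => p1 R P T a c).card := by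
    intro c
    have : ((univ.filter fun a => p1 R P T a c).card : ℤ) ≤
        rk R (univ.filter fun a => p1 R P T a c) (univ.filter fun d => q R P T d c) := by
      have h1 : (univ.filter fun a => p1 R P T a c).card ≤
          rk R (univ.filter fun a => p1 R P T a c) (univ.filter fun d => q R P T d c) := by
        apply le_rk
        intro U hU
        refine (claim1 H2 c U ?_).trans ?_
        · intro a ha
          exact (Finset.mem_filter.1 (hU ha)).2
        · apply Finset.card_le_card
          intro d hd
          simp only [Finset.mem_filter, Finset.mem_univ, true_and] at hd ⊢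
          exact ⟨hd.2, hd.1⟩
      exact_mod_cast h1
    linarith
  have sL := Finset.sum_le_sum (s := univ) fun b _ => hL b
  have sR := Finset.sum_le_sum (s := univ) fun c _ => hR c
  rw [Finset.sum_sub_distrib] at sL
  rw [Finset.sum_sub_distrib (s := univ)
    (f := fun c => ((univ.filter fun d => q R P T d c).card : ℤ))
    (g := fun c => ((univ.filter fun a => p1 R P T a c).card : ℤ))] at sR
  linarith

end

end Vale.Agent.P038.H895
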