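import Vale.Agent.P038.Defs

/-!
# Arc-minimal counterexamples have decreasing boundaries
-/

namespace Vale.Agent.P038.H895

open Finset
open scoped Classical

noncomputable section

variable {V : Type*} [Fintype V]

/-- The closed out-neighbourhood of a set with respect to a relation. -/
def nb (R : V → V → Prop) (S : Finset V) : Finset V := univ.filter fun y => ∃ x ∈ S, R x y

theorem mem_nb {R : V → V → Prop} {S : Finset V} {y : V} : y ∈ nb R S ↔ ∃ x ∈ S, R x y := by
  simp [nb]

/-- The reflexive closure of the arc relation. -/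
def rel (D : OGraph V) (x y : V) : Prop := x = y ∨ D.arc x y

/-- A counterexample to the second neighbourhood conjecture. -/
def CE (D : OGraph V) : Prop := ∀ v, (N2 D v).card < (N1 D v).card

/-- The number of arcs. -/
def numArcs (D : OGraph V) : ℕ := ∑ v, (N1 D v).card

/-- Delete all arcs from `X` to the outside of `X ∪ T`. -/
def del (D : OGraph V) (X T : Finset V) : OGraph V where
  arc u v := D.arc u v ∧ ¬ (u ∈ X ∧ v ∉ X ∧ v ∉ T)
  loopless v h := D.loopless v h.1
  asymm u v h h' := D.asymm u v h.1 h'.1

theorem boundary_lt {D : OGraph V} (hD : CE D)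
    (hmin : ∀ D' : OGraph V, CE D' → numArcs D ≤ numArcs D') (X : Finset V)
    (hX : nb (rel D) X ≠ X) :
    (nb (rel D) (nb (rel D) X)).card + X.card <
      (nb (rel D) X).card + (nb (rel D) X).card := by
  have hself : ∀ S : Finset V, S ⊆ nb (rel D) S := fun S x hx => mem_nb.2 ⟨x, hx, Or.inl rfl⟩
  set L : Finset V := nb (rel D) X \ X with hL
  have hLne : L.Nonempty := by
    rw [Finset.nonempty_iff_ne_empty]
    intro h
    apply hX
    apply Finset.Subset.antisymm _ (hself X)
    rwa [hL, Finset.sdiff_eq_empty_iff_subset] at h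
  by_contra hcon
  push Not at hcon
  -- the deficiency function
  let d : Finset V → ℤ := fun T => ((nb (rel D) T \ X).card : ℤ) - 2 * T.card
  have hXL : (nb (rel D) X).card = X.card + L.card := by
    rw [hL, Finset.card_sdiff_of_subset (hself X)]
    have := Finset.card_le_card (hself X)
    omega
  have hd0 : d ∅ = 0 := by simp [d, nb]
  have hdL : 0 ≤ d L := by
    have h1 : nb (rel D) (nb (rel D) X) ⊆ X ∪ (nb (rel D) L \ X) := by
      intro y hy
      obtain ⟨x, hx, hxy⟩ := mem_nb.1 hy
      by_cases hyX : y ∈ X
      · exact Finset.mem_union_left _ hyX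
      · apply Finset.mem_union_right
        rw [Finset.mem_sdiff]
        refine ⟨?_, hyX⟩
        by_cases hxX : x ∈ X
        · have : y ∈ L := by
            rw [hL, Finset.mem_sdiff]
            exact ⟨mem_nb.2 ⟨x, hxX, hxy⟩, hyX⟩
          exact hself L this
        · exact mem_nb.2 ⟨x, by rw [hL, Finset.mem_sdiff]; exact ⟨hx, hxX⟩, hxy⟩
    have h2 := (Finset.card_le_card h1).trans (Finset.card_union_le _ _)
    simp only [d]
    omega
  -- choose `T`
  obtain ⟨T, hT, hTmin⟩ := Finset.exists_min_image (L.powerset.erase L) d
    ⟨∅, by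
      rw [Finset.mem_erase]
      exact ⟨hLne.ne_empty.symm, Finset.empty_mem_powerset _⟩⟩
  have hTL : T ⊆ L := Finset.mem_powerset.1 (Finset.mem_of_mem_erase hT)
  have hTne : T ≠ L := Finset.ne_of_mem_erase hT
  have hT0 : d T ≤ 0 := by
    rw [← hd0]
    apply hTmin
    rw [Finset.mem_erase]
    exact ⟨hLne.ne_empty.symm, Finset.empty_mem_powerset _⟩
  have hTall : ∀ T' : Finset V, T' ⊆ L → d T ≤ d T' := by
    intro T' hT'
    by_cases h : T' = L
    · rw [h]; linarith
    · exact hTmin T' (Finset.mem_erase.2 ⟨h, Finset.mem_powerset.2 hT'⟩)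
  have hTX : ∀ x ∈ T, x ∉ X := by
    intro x hx
    have := hTL hx
    rw [hL, Finset.mem_sdiff] at this
    exact this.2
  -- inequality (1)
  have h1 : ∀ D' : Finset V, D' ⊆ L → Disjoint T D' →
      2 * D'.card ≤ (nb (rel D) D' \ (nb (rel D) T ∪ X)).card := by
    intro D' hD' hdis
    have h2 := hTall (T ∪ D') (Finset.union_subset hTL hD')
    have h3 : (nb (rel D) (T ∪ D') \ X).card =
        (nb (rel D) T \ X).card + (nb (rel D) D' \ (nb (rel D) T ∪ X)).card := by
      rw [← Finset.card_union_of_disjoint]
      · congr 1
        ext y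
        simp only [mem_nb, Finset.mem_sdiff, Finset.mem_union]
        constructor
        · rintro ⟨⟨x, hx | hx, hxy⟩, hy⟩
          · exact Or.inl ⟨⟨x, hx, hxy⟩, hy⟩
          · by_cases h : ∃ x ∈ T, rel D x y
            · exact Or.inl ⟨h, hy⟩
            · right
              refine ⟨⟨x, hx, hxy⟩, ?_⟩
              rintro (h' | h')
              · exact h h'
              · exact hy h'
        · rintro (⟨⟨x, hx, hxy⟩, hy⟩ | ⟨⟨x, hx, hxy⟩, hy⟩)
          · exact ⟨⟨x, Or.inl hx, hxy⟩, hy⟩
          · exact ⟨⟨x, Or.inr hx, hxy⟩, fun h => hy (Or.inr h)⟩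
      · rw [Finset.disjoint_left]
        intro y hy hy'
        rw [Finset.mem_sdiff] at hy hy'
        exact hy'.2 (Finset.mem_union_left _ hy.1)
    have h4 : (T ∪ D').card = T.card + D'.card := Finset.card_union_of_disjoint hdis
    simp only [d] at h2
    omega
  -- the smaller counterexample
  have hCE : CE (del D X T) := by
    intro y
    by_cases hy : y ∈ X
    · set Dy : Finset V := (N1 D y).filter fun v => v ∉ X ∧ v ∉ T with hDy
      have hDyL : Dy ⊆ L := by
        intro v hv
        obtain ⟨hv1, hv2, hv3⟩ := Finset.mem_filter.1 hv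
        rw [hL, Finset.mem_sdiff]
        exact ⟨mem_nb.2 ⟨y, hy, Or.inr (mem_N1.1 hv1)⟩, hv2⟩
      have hDyT : Disjoint T Dy := by
        rw [Finset.disjoint_left]
        intro v hv hv'
        exact (Finset.mem_filter.1 hv').2.2 hv
      have e1 := h1 Dy hDyL hDyT
      set E : Finset V := nb (rel D) Dy \ (nb (rel D) T ∪ X) with hE
      have a1 : (N1 (del D X T) y).card + Dy.card = (N1 D y).card := by
        rw [← Finset.card_union_of_disjoint]
        · congr 1
          ext v
          simp only [mem_N1, Finset.mem_union, hDy, Finset.mem_filter, del]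
          tauto
        · rw [Finset.disjoint_left]
          intro v hv hv'
          rw [mem_N1] at hv
          exact hv.2 ⟨hy, (Finset.mem_filter.1 hv').2⟩
      have a2 : N2 (del D X T) y ⊆ (N2 D y ∪ Dy) \ E := by
        intro z hz
        rw [mem_N2] at hz
        obtain ⟨hzy, hz1, u, hyu, huz⟩ := hz
        rw [Finset.mem_sdiff]
        constructor
        · rw [Finset.mem_union]
          by_cases hyz : D.arc y z
          · right
            rw [hDy, Finset.mem_filter, mem_N1]
            refine ⟨hyz, ?_⟩
            by_contra h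
            exact hz1 ⟨hyz, fun h' => h h'.2⟩
          · left
            rw [mem_N2]
            exact ⟨hzy, hyz, u, hyu.1, huz.1⟩
        · intro hzE
          rw [hE, Finset.mem_sdiff, Finset.mem_union] at hzE
          obtain ⟨_, hz2⟩ := hzE
          apply hz2
          by_cases huX : u ∈ X
          · by_cases hzX : z ∈ X
            · exact Or.inr hzX
            · left
              have : z ∈ T := by
                by_contra hzT
                exact huz.2 ⟨huX, hzX, hzT⟩
              exact hself T this
          · left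
            have huT : u ∈ T := by
              by_contra huT
              exact hyu.2 ⟨hy, huX, huT⟩
            exact mem_nb.2 ⟨u, huT, Or.inr huz.1⟩
      have a3 : E ⊆ N2 D y ∪ Dy := by
        intro z hz
        rw [hE, Finset.mem_sdiff, Finset.mem_union] at hz
        obtain ⟨hz1, hz2⟩ := hz
        obtain ⟨u, hu, huz⟩ := mem_nb.1 hz1
        rw [Finset.mem_union]
        have hzX : z ∉ X := fun h => hz2 (Or.inr h)
        have hzT : z ∉ T := fun h => hz2 (Or.inl (hself T h))
        by_cases hyz : D.arc y z
        · right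
          rw [hDy, Finset.mem_filter, mem_N1]
          exact ⟨hyz, hzX, hzT⟩
        · left
          rw [mem_N2]
          refine ⟨?_, hyz, ?_⟩
          · rintro rfl
            exact hzX hy
          · have hyu : D.arc y u := mem_N1.1 (Finset.mem_filter.1 hu).1
            rcases huz with rfl | huz
            · exact absurd hyu hyz
            · exact ⟨u, hyu, huz⟩
      have a4 : (N2 (del D X T) y).card ≤ (N2 D y).card + Dy.card - E.card := by
        refine (Finset.card_le_card a2).trans ?_
        rw [Finset.card_sdiff_of_subset a3]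
        have := Finset.card_union_le (N2 D y) Dy
        omega
      have a5 : E.card ≤ (N2 D y).card + Dy.card :=
        (Finset.card_le_card a3).trans (Finset.card_union_le _ _)
      have := hD y
      omega
    · have a1 : N1 (del D X T) y = N1 D y := by
        ext v
        simp only [mem_N1, del]
        tauto
      have a2 : N2 (del D X T) y ⊆ N2 D y := by
        intro z hz
        rw [mem_N2] at hz ⊢
        obtain ⟨hzy, hz1, u, hyu, huz⟩ := hz
        refine ⟨hzy, fun h => hz1 ⟨h, fun h' => hy h'.1⟩, u, hyu.1, huz.1⟩
      rw [a1]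
      exact (Finset.card_le_card a2).trans_lt (hD y)
  have hlt : numArcs (del D X T) < numArcs D := by
    unfold numArcs
    have hsub : ∀ v, N1 (del D X T) v ⊆ N1 D v := by
      intro v u hu
      rw [mem_N1] at hu ⊢
      exact hu.1
    obtain ⟨l, hl, hlT⟩ : ∃ l ∈ L, l ∉ T := by
      by_contra h
      push Not at h
      exact hTne (Finset.Subset.antisymm hTL h)
    have hl' := hl
    rw [hL, Finset.mem_sdiff] at hl'
    obtain ⟨x, hx, hxl⟩ := mem_nb.1 hl'.1
    have hxl' : D.arc x l := by
      rcases hxl with rfl | h
      · exact absurd hx hl'.2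
      · exact h
    apply Finset.sum_lt_sum
    · intro v _
      exact Finset.card_le_card (hsub v)
    · refine ⟨x, Finset.mem_univ _, ?_⟩
      apply Finset.card_lt_card
      refine ⟨hsub x, fun h => ?_⟩
      have := h (mem_N1.2 hxl')
      rw [mem_N1] at this
      exact this.2 ⟨hx, hl'.2, hlT⟩
  exact absurd (hmin _ hCE) (not_le.2 hlt)

end

end Vale.Agent.P038.H895
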