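import Vale.Agent.P038.H895.Core
import Vale.Agent.P038.H895.G

/-!
# Seymour's second neighbourhood conjecture
-/

namespace Vale.Agent.P038.H895

open Finset
open scoped Classical

noncomputable section

variable {V : Type*} [Fintype V]

/-- The boundary size of a set, `|N[X] \ X|` as an integer. -/
def bd (R : V → V → Prop) (X : Finset V) : ℤ := ((nb R X).card : ℤ) - X.card

/-- The cost of a family of sets. -/
def cost (R : V → V → Prop) (P : V → Finset V) : ℤ := ∑ a, bd R (P a)

/-- The outer pairs. -/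
def Outer (R : V → V → Prop) (P T : V → Finset V) : Prop :=
  (∀ a y, R a y → y ∈ P a) ∧ (∀ b y, R b y → y ∈ T b) ∧
    ∀ a b, b ∈ P a → a ∈ T b → a = b

/-- Intersections over closed in-neighbourhoods. -/
def inter (R : V → V → Prop) (P : V → Finset V) (d : V) : Finset V :=
  univ.filter fun x => ∀ a, R a d → x ∈ P a

theorem Outer.symm {R : V → V → Prop} {P T : V → Finset V} (h : Outer R P T) : Outer R T P :=
  ⟨h.2.1, h.1, fun a b h1 h2 => (h.2.2 b a h2 h1).symm⟩

/-- At a minimiser, the Hall condition of the gap cells holds (for the second family). -/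
theorem hall {R : V → V → Prop} {P T : V → Finset V} (h : Outer R P T)
    (hmin : ∀ T' : V → Finset V, Outer R P T' → cost R T ≤ cost R T') : HC R P T := by
  intro b S hS
  set T' : V → Finset V := Function.update T b (T b ∪ S) with hT'
  have hT'b : T' b = T b ∪ S := by simp [hT']
  have hT'n : ∀ c, c ≠ b → T' c = T c := fun c hc => by simp [hT', hc]
  have hO : Outer R P T' := by
    refine ⟨h.1, ?_, ?_⟩
    · intro c y hy
      by_cases hc : c = b
      · subst hc
        rw [hT'b]
        exact Finset.mem_union_left _ (h.2.1 c y hy)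
      · rw [hT'n c hc]
        exact h.2.1 c y hy
    · intro a c hc1 hc2
      by_cases hc : c = b
      · subst hc
        rw [hT'b, Finset.mem_union] at hc2
        rcases hc2 with hc2 | hc2
        · exact h.2.2 a c hc1 hc2
        · exact absurd hc1 (hS a hc2).1
      · rw [hT'n c hc] at hc2
        exact h.2.2 a c hc1 hc2
  have h1 := hmin T' hO
  have h2 : cost R T' = cost R T - bd R (T b) + bd R (T b ∪ S) := by
    unfold cost
    rw [← Finset.add_sum_erase univ (fun a => bd R (T' a)) (Finset.mem_univ b),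
      ← Finset.add_sum_erase univ (fun a => bd R (T a)) (Finset.mem_univ b)]
    have : ∑ x ∈ univ.erase b, bd R (T' x) = ∑ x ∈ univ.erase b, bd R (T x) :=
      Finset.sum_congr rfl fun x hx => by rw [hT'n x (Finset.ne_of_mem_erase hx)]
    rw [this, hT'b]
    ring
  have hdis : Disjoint (T b) S := by
    rw [Finset.disjoint_left]
    intro a ha ha'
    exact (hS a ha').2 ha
  have h3 : (T b ∪ S).card = (T b).card + S.card := Finset.card_union_of_disjoint hdis
  have h4 : (nb R (T b ∪ S)).card = (nb R (T b)).card +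
      (univ.filter fun d => (∃ a ∈ S, R a d) ∧ ∀ x ∈ T b, ¬ R x d).card := by
    rw [← Finset.card_union_of_disjoint]
    · congr 1
      ext y
      simp only [mem_nb, Finset.mem_union, Finset.mem_filter, Finset.mem_univ, true_and]
      constructor
      · rintro ⟨x, hx | hx, hxy⟩
        · exact Or.inl ⟨x, hx, hxy⟩
        · by_cases h : ∃ x ∈ T b, R x y
          · exact Or.inl h
          · right
            exact ⟨⟨x, hx, hxy⟩, fun z hz hzy => h ⟨z, hz, hzy⟩⟩
      · rintro (⟨x, hx, hxy⟩ | ⟨⟨x, hx, hxy⟩, _⟩)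
        · exact ⟨x, Or.inl hx, hxy⟩
        · exact ⟨x, Or.inr hx, hxy⟩
    · rw [Finset.disjoint_left]
      intro y hy hy'
      obtain ⟨x, hx, hxy⟩ := mem_nb.1 hy
      exact (Finset.mem_filter.1 hy').2.2 x hx hxy
  unfold bd at h2
  rw [h3, h4] at h2
  push_cast at h2
  have : (S.card : ℤ) ≤ (univ.filter fun d => (∃ a ∈ S, R a d) ∧ ∀ x ∈ T b, ¬ R x d).card := by
    linarith
  exact_mod_cast this

/-- Indicator sum over all cells. -/
def cnt (r : V → V → Prop) : ℤ := ∑ d, ∑ c, if r d c then 1 else 0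

theorem cnt_row (r : V → V → Prop) :
    cnt r = ∑ d, ((univ.filter fun c => r d c).card : ℤ) := by
  unfold cnt
  refine Finset.sum_congr rfl fun d _ => ?_
  rw [Finset.sum_boole]

theorem cnt_col (r : V → V → Prop) :
    cnt r = ∑ c, ((univ.filter fun d => r d c).card : ℤ) := by
  unfold cnt
  rw [Finset.sum_comm]
  refine Finset.sum_congr rfl fun d _ => ?_
  rw [Finset.sum_boole]

theorem cost_row (R : V → V → Prop) (P : V → Finset V) :
    cost R P = cnt (fun d c => c ∈ nb R (P d)) - cnt (fun d c => c ∈ P d) := by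
  rw [cnt_row, cnt_row, ← Finset.sum_sub_distrib]
  unfold cost bd
  refine Finset.sum_congr rfl fun d _ => ?_
  congr 2 <;> congr 1 <;> ext x <;> simp

theorem cost_col (R : V → V → Prop) (P : V → Finset V) :
    cost R P = cnt (fun d c => d ∈ nb R (P c)) - cnt (fun d c => d ∈ P c) := by
  rw [cnt_col, cnt_col, ← Finset.sum_sub_distrib]
  unfold cost bd
  refine Finset.sum_congr rfl fun d _ => ?_
  congr 2 <;> congr 1 <;> ext x <;> simp

/-- The compatibility of the intersected families. -/
theorem inter_compat {R : V → V → Prop} (hR : ∀ x, R x x) {P T : V → Finset V}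
    (h : Outer R P T) {d c : V} (h1 : c ∈ nb R (inter R P d)) (h2 : d ∈ nb R (inter R T c)) :
    d = c := by
  obtain ⟨x, hx, hxc⟩ := mem_nb.1 h1
  obtain ⟨y, hy, hyd⟩ := mem_nb.1 h2
  have hx' : ∀ a, R a d → x ∈ P a := (Finset.mem_filter.1 hx).2
  have hy' : ∀ b, R b c → y ∈ T b := (Finset.mem_filter.1 hy).2
  have hxy : y = x := h.2.2 y x (hx' y hyd) (hy' x hxc)
  subst hxy
  have e1 : d = y := h.2.2 d y (hx' d (hR d)) (h.2.1 y d hyd)
  have e2 : y = c := h.2.2 y c (h.1 y c hxc) (hy' c (hR c))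
  exact e1.trans e2

theorem cell_eq {A B C E F : Prop} (hF : F) (a1 : A → B → E) (a2 : E → A ∧ B)
    (a3 : C ↔ (¬ A ∧ ¬ B)) :
    (if A then (1 : ℤ) else 0) + (if B then (1 : ℤ) else 0) + (if C then (1 : ℤ) else 0) =
      (if F then (1 : ℤ) else 0) + (if E then (1 : ℤ) else 0) := by
  rw [if_pos hF]
  by_cases b1 : A <;> by_cases b2 : B
  · have hE := a1 b1 b2
    have hC : ¬ C := fun h => (a3.1 h).1 b1
    simp [b1, b2, hE, hC]
  · have hE : ¬ E := fun h => b2 (a2 h).2
    have hC : ¬ C := fun h => (a3.1 h).1 b1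
    simp [b1, b2, hE, hC]
  · have hE : ¬ E := fun h => b1 (a2 h).1
    have hC : ¬ C := fun h => (a3.1 h).2 b2
    simp [b1, b2, hE, hC]
  · have hE : ¬ E := fun h => b1 (a2 h).1
    have hC : C := a3.2 ⟨b1, b2⟩
    simp [b1, b2, hE, hC]

theorem cell_le {A B C E F : Prop} (hF : F) (a1 : A → B → E) (a3 : C → (¬ A ∧ ¬ B)) :
    (if A then (1 : ℤ) else 0) + (if B then (1 : ℤ) else 0) + (if C then (1 : ℤ) else 0) ≤
      (if F then (1 : ℤ) else 0) + (if E then (1 : ℤ) else 0) := by
  rw [if_pos hF]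
  have h0 : (0 : ℤ) ≤ if E then (1 : ℤ) else 0 := by split_ifs <;> norm_num
  by_cases b1 : A <;> by_cases b2 : B
  · have hE := a1 b1 b2
    have hC : ¬ C := fun h => (a3 h).1 b1
    simp [b1, b2, hE, hC]
  · have hC : ¬ C := fun h => (a3 h).1 b1
    simp only [b1, b2, hC, if_true, if_false]
    linarith
  · have hC : ¬ C := fun h => (a3 h).2 b2
    simp only [b1, b2, hC, if_true, if_false]
    linarith
  · have hC : (if C then (1 : ℤ) else 0) ≤ 1 := by split_ifs <;> norm_num
    simp only [b1, b2, if_false]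
    linarith

theorem cnt_eq {A B C E : V → V → Prop} (a1 : ∀ d c, A d c → B d c → E d c)
    (a2 : ∀ d c, E d c → A d c ∧ B d c) (a3 : ∀ d c, C d c ↔ (¬ A d c ∧ ¬ B d c)) :
    cnt A + cnt B + cnt C = cnt (fun _ _ : V => True) + cnt E := by
  unfold cnt
  simp only [← Finset.sum_add_distrib]
  exact Finset.sum_congr rfl fun d _ => Finset.sum_congr rfl fun c _ =>
    cell_eq (F := (fun _ _ : V => True) d c) trivial (a1 d c) (a2 d c) (a3 d c)

theorem cnt_le {A B C E : V → V → Prop} (a1 : ∀ d c, A d c → B d c → E d c)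
    (a3 : ∀ d c, C d c → (¬ A d c ∧ ¬ B d c)) :
    cnt A + cnt B + cnt C ≤ cnt (fun _ _ : V => True) + cnt E := by
  unfold cnt
  simp only [← Finset.sum_add_distrib]
  exact Finset.sum_le_sum fun d _ => Finset.sum_le_sum fun c _ =>
    cell_le (F := (fun _ _ : V => True) d c) trivial (a1 d c) (a3 d c)

theorem id1 {R : V → V → Prop} (hR : ∀ x, R x x) {P T : V → Finset V} (h : Outer R P T) :
    cnt (fun d c => c ∈ P d) + cnt (fun d c => d ∈ T c) + cnt (fun d c => c ∉ P d ∧ d ∉ T c) =
      cnt (fun _ _ : V => True) + cnt (fun d c : V => d = c) := by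
  refine cnt_eq (fun d c => ?_) (fun d c => ?_) (fun d c => ?_)
  · exact h.2.2 d c
  · rintro rfl
    exact ⟨h.1 d d (hR d), h.2.1 d d (hR d)⟩
  · exact Iff.rfl

theorem id2 {R : V → V → Prop} (hR : ∀ x, R x x) {P T : V → Finset V} (h : Outer R P T) :
    cnt (fun d c => c ∈ nb R (P d)) + cnt (fun d c => d ∈ inter R T c) +
      cnt (fun d c => p1 R P T d c) =
      cnt (fun _ _ : V => True) + cnt (fun d c : V => d = c) := by
  refine cnt_eq (fun d c => ?_) (fun d c => ?_) (fun d c => ?_)
  · intro h1 h2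
    obtain ⟨x, hx, hxc⟩ := mem_nb.1 h1
    have h2' : ∀ b, R b c → d ∈ T b := (Finset.mem_filter.1 h2).2
    have e1 : d = x := h.2.2 d x hx (h2' x hxc)
    subst e1
    exact h.2.2 d c (h.1 d c hxc) (h2' c (hR c))
  · rintro rfl
    exact ⟨mem_nb.2 ⟨d, h.1 d d (hR d), hR d⟩,
      Finset.mem_filter.2 ⟨Finset.mem_univ _, fun b hb => h.2.1 b d hb⟩⟩
  · constructor
    · rintro ⟨h1, b, hb, h2, h3⟩
      refine ⟨fun h4 => ?_, fun h4 => ?_⟩
      · obtain ⟨x, hx, hxc⟩ := mem_nb.1 h4
        exact h1 x hx hxc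
      · exact h3 ((Finset.mem_filter.1 h4).2 b hb)
    · rintro ⟨h1, h2⟩
      have h1' : ∀ x ∈ P d, ¬ R x c := fun x hx hxc => h1 (mem_nb.2 ⟨x, hx, hxc⟩)
      refine ⟨h1', ?_⟩
      have : ¬ ∀ b, R b c → d ∈ T b := fun h3 =>
        h2 (Finset.mem_filter.2 ⟨Finset.mem_univ _, h3⟩)
      push Not at this
      obtain ⟨b, hb, hdb⟩ := this
      exact ⟨b, hb, fun hbP => h1' b hbP hb, hdb⟩

theorem cnt_swap (r : V → V → Prop) : cnt (fun d c => r c d) = cnt r := by
  unfold cnt
  rw [Finset.sum_comm]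

theorem id3 {R : V → V → Prop} (hR : ∀ x, R x x) {P T : V → Finset V} (h : Outer R P T) :
    cnt (fun d c => d ∈ nb R (T c)) + cnt (fun d c => c ∈ inter R P d) +
      cnt (fun d c => p1 R T P c d) =
      cnt (fun _ _ : V => True) + cnt (fun d c : V => d = c) := by
  have h1 := id2 hR h.symm
  have e1 : cnt (fun d c => d ∈ nb R (T c)) = cnt (fun d c => c ∈ nb R (T d)) :=
    cnt_swap (fun d c => c ∈ nb R (T d))
  have e2 : cnt (fun d c => c ∈ inter R P d) = cnt (fun d c => d ∈ inter R P c) :=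
    cnt_swap (fun d c => d ∈ inter R P c)
  have e3 : cnt (fun d c => p1 R T P c d) = cnt (fun d c => p1 R T P d c) :=
    cnt_swap (fun d c => p1 R T P d c)
  rw [e1, e2, e3]
  exact h1

theorem id4 {R : V → V → Prop} (hR : ∀ x, R x x) {P T : V → Finset V} (h : Outer R P T) :
    cnt (fun d c => c ∈ nb R (inter R P d)) + cnt (fun d c => d ∈ nb R (inter R T c)) +
      cnt (fun d c => q R P T d c) ≤
      cnt (fun _ _ : V => True) + cnt (fun d c : V => d = c) := by
  refine cnt_le (fun d c => ?_) (fun d c => ?_)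
  · exact inter_compat hR h
  · rintro ⟨⟨b, hb, h1⟩, ⟨a, ha, h2⟩⟩
    refine ⟨fun h4 => ?_, fun h4 => ?_⟩
    · obtain ⟨x, hx, hxc⟩ := mem_nb.1 h4
      exact h2 x ((Finset.mem_filter.1 hx).2 a ha) hxc
    · obtain ⟨x, hx, hxc⟩ := mem_nb.1 h4
      exact h1 x ((Finset.mem_filter.1 hx).2 b hb) hxc

theorem comparison_cnt {R : V → V → Prop} {P T : V → Finset V} (H1 : HC R T P)
    (H2 : HC R P T) :
    cnt (fun d c => p1 R T P c d) + cnt (fun d c => p1 R P T d c) ≤
      cnt (fun d c => c ∉ P d ∧ d ∉ T c) + cnt (fun d c => q R P T d c) := by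
  have hcmp := comparison H1 H2
  rw [cnt_col, cnt_col, cnt_col, cnt_col]
  convert hcmp

/-- The intersected pair is not more expensive. -/
theorem cost_inter_le {R : V → V → Prop} (hR : ∀ x, R x x) {P T : V → Finset V}
    (h : Outer R P T) (H1 : HC R T P) (H2 : HC R P T) :
    cost R (inter R P) + cost R (inter R T) ≤ cost R P + cost R T := by
  have hcmp := comparison_cnt H1 H2
  have k1 := cost_row R (inter R P)
  have k2 := cost_col R (inter R T)
  have k3 := cost_row R P
  have k4 := cost_col R T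
  have i1 := id1 hR h
  have i2 := id2 hR h
  have i3 := id3 hR h
  have i4 := id4 hR h
  linarith

/-- There is no counterexample. -/
theorem no_ce [Nonempty V] (D : OGraph V) : ¬ CE D := by
  intro hCE0
  -- an arc-minimal counterexample
  obtain ⟨D, hCE, hDmin⟩ : ∃ D : OGraph V, CE D ∧ ∀ D' : OGraph V, CE D' →
      numArcs D ≤ numArcs D' := by
    have hne : {D : OGraph V | CE D}.Nonempty := ⟨D, hCE0⟩
    refine ⟨(measure (numArcs (V := V))).wf.min {D : OGraph V | CE D} hne,
      (measure (numArcs (V := V))).wf.min_mem {D : OGraph V | CE D} hne, fun D' hD' => ?_⟩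
    have := (measure (numArcs (V := V))).wf.not_lt_min {D : OGraph V | CE D} hD'
    exact not_lt.1 this
  set R : V → V → Prop := rel D with hRdef
  have hR : ∀ x, R x x := fun x => Or.inl rfl
  have hRanti : ∀ x y, R x y → R y x → x = y := by
    intro x y h1 h2
    rcases h1 with h1 | h1
    · exact h1
    · rcases h2 with h2 | h2
      · exact h2.symm
      · exact absurd h2 (D.asymm x y h1)
  have hself : ∀ S : Finset V, S ⊆ nb R S := fun S x hx => mem_nb.2 ⟨x, hx, hR x⟩
  have hG : ∀ X : Finset V, nb R X ≠ X → bd R (nb R X) < bd R X := by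
    intro X hX
    have := boundary_lt hCE hDmin X hX
    unfold bd
    have h2 : ((nb R (nb R X)).card : ℤ) + X.card < (nb R X).card + (nb R X).card := by
      exact_mod_cast this
    linarith
  have hG' : ∀ X : Finset V, bd R (nb R X) ≤ bd R X := by
    intro X
    by_cases h : nb R X = X
    · rw [h]
    · exact (hG X h).le
  -- a minimal outer pair
  obtain ⟨⟨P, T⟩, hO, hmin⟩ : ∃ PT : (V → Finset V) × (V → Finset V), Outer R PT.1 PT.2 ∧
      ∀ PT' : (V → Finset V) × (V → Finset V), Outer R PT'.1 PT'.2 →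
        cost R PT.1 + cost R PT.2 ≤ cost R PT'.1 + cost R PT'.2 := by
    have hne : (univ.filter fun PT : (V → Finset V) × (V → Finset V) =>
        Outer R PT.1 PT.2).Nonempty := by
      refine ⟨(fun a => univ.filter fun y => R a y, fun a => univ.filter fun y => R a y), ?_⟩
      rw [Finset.mem_filter]
      refine ⟨Finset.mem_univ _, fun a y h => by simpa using h, fun a y h => by simpa using h, ?_⟩
      intro a b h1 h2
      exact hRanti a b (by simpa using h1) (by simpa using h2)
    obtain ⟨PT, h1, h2⟩ := Finset.exists_min_image _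
      (fun PT : (V → Finset V) × (V → Finset V) => cost R PT.1 + cost R PT.2) hne
    exact ⟨PT, (Finset.mem_filter.1 h1).2, fun PT' h' =>
      h2 PT' (Finset.mem_filter.2 ⟨Finset.mem_univ _, h'⟩)⟩
  simp only at hO hmin
  have H2 : HC R P T := hall hO fun T' hT' => by
    have := hmin (P, T') hT'
    simp only at this
    linarith
  have H1 : HC R T P := hall hO.symm fun P' hP' => by
    have := hmin (P', T) hP'.symm
    simp only at this
    linarith
  have hle := cost_inter_le hR hO H1 H2
  -- the closed neighbourhoods of the intersected pair form an outer pair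
  have hO2 : Outer R (fun a => nb R (inter R P a)) (fun a => nb R (inter R T a)) := by
    refine ⟨fun a y h => ?_, fun a y h => ?_, fun a b h1 h2 => inter_compat hR hO h1 h2⟩
    · exact mem_nb.2 ⟨a, Finset.mem_filter.2 ⟨Finset.mem_univ _, fun b hb => hO.1 b a hb⟩, h⟩
    · exact mem_nb.2 ⟨a, Finset.mem_filter.2 ⟨Finset.mem_univ _, fun b hb => hO.2.1 b a hb⟩, h⟩
  have hge := hmin (fun a => nb R (inter R P a), fun a => nb R (inter R T a)) hO2
  simp only at hge
  have l1 : cost R (fun a => nb R (inter R P a)) ≤ cost R (inter R P) :=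
    Finset.sum_le_sum fun a _ => hG' _
  have l2 : cost R (fun a => nb R (inter R T a)) ≤ cost R (inter R T) :=
    Finset.sum_le_sum fun a _ => hG' _
  have e1 : cost R (fun a => nb R (inter R P a)) = cost R (inter R P) := by linarith
  have e2 : cost R (fun a => nb R (inter R T a)) = cost R (inter R T) := by linarith
  have f1 : ∀ a, nb R (inter R P a) = inter R P a := by
    intro a
    by_contra hne
    have : cost R (fun a => nb R (inter R P a)) < cost R (inter R P) :=
      Finset.sum_lt_sum (fun a _ => hG' _) ⟨a, Finset.mem_univ _, hG _ hne⟩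
    linarith
  have f2 : ∀ a, nb R (inter R T a) = inter R T a := by
    intro a
    by_contra hne
    have : cost R (fun a => nb R (inter R T a)) < cost R (inter R T) :=
      Finset.sum_lt_sum (fun a _ => hG' _) ⟨a, Finset.mem_univ _, hG _ hne⟩
    linarith
  -- a minimal nonempty closed set
  obtain ⟨C, ⟨hCne, hCcl⟩, hCmin⟩ : ∃ C : Finset V, (C.Nonempty ∧ nb R C = C) ∧
      ∀ C' : Finset V, (C'.Nonempty ∧ nb R C' = C') → C.card ≤ C'.card := by
    have hne : (univ.filter fun C : Finset V => C.Nonempty ∧ nb R C = C).Nonempty := by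
      refine ⟨univ, Finset.mem_filter.2 ⟨Finset.mem_univ _, Finset.univ_nonempty, ?_⟩⟩
      exact Finset.Subset.antisymm (Finset.subset_univ _) (hself _)
    obtain ⟨C, h1, h2⟩ := Finset.exists_min_image _ (fun C : Finset V => C.card) hne
    exact ⟨C, (Finset.mem_filter.1 h1).2, fun C' h' =>
      h2 C' (Finset.mem_filter.2 ⟨Finset.mem_univ _, h'⟩)⟩
  obtain ⟨a, ha⟩ := hCne
  obtain ⟨b, hb⟩ : ∃ b, D.arc a b := by
    have h1 : 0 < (N1 D a).card := lt_of_le_of_lt (Nat.zero_le _) (hCE a)
    obtain ⟨b, hb⟩ := Finset.card_pos.1 h1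
    exact ⟨b, mem_N1.1 hb⟩
  have hbC : b ∈ C := by
    rw [← hCcl]
    exact mem_nb.2 ⟨a, ha, Or.inr hb⟩
  have hbY : b ∈ inter R T b :=
    Finset.mem_filter.2 ⟨Finset.mem_univ _, fun c hc => hO.2.1 c b hc⟩
  have haX : a ∈ inter R P a :=
    Finset.mem_filter.2 ⟨Finset.mem_univ _, fun c hc => hO.1 c a hc⟩
  have hcl : nb R (inter R T b ∩ C) = inter R T b ∩ C := by
    apply Finset.Subset.antisymm _ (hself _)
    intro y hy
    obtain ⟨x, hx, hxy⟩ := mem_nb.1 hy
    rw [Finset.mem_inter] at hx ⊢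
    constructor
    · rw [← f2 b]
      exact mem_nb.2 ⟨x, hx.1, hxy⟩
    · rw [← hCcl]
      exact mem_nb.2 ⟨x, hx.2, hxy⟩
  have hCeq : inter R T b ∩ C = C :=
    Finset.eq_of_subset_of_card_le Finset.inter_subset_right
      (hCmin _ ⟨⟨b, Finset.mem_inter.2 ⟨hbY, hbC⟩⟩, hcl⟩)
  have haY : a ∈ nb R (inter R T b) := by
    rw [f2 b]
    rw [← hCeq] at ha
    exact (Finset.mem_inter.1 ha).1
  have hbX : b ∈ nb R (inter R P a) := mem_nb.2 ⟨a, haX, Or.inr hb⟩
  have : a = b := inter_compat hR hO hbX haY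
  subst this
  exact D.loopless a hb

/-- **Seymour's second neighbourhood conjecture.** -/
theorem seymour [Nonempty V] (D : OGraph V) : ∃ v, (N1 D v).card ≤ (N2 D v).card := by
  by_contra h
  push Not at h
  exact no_ce D h

end

end Vale.Agent.P038.H895
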